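import Crest.Agent.X262.Ms2.Keep
import Crest.Agent.X277.Cns.Prod

/-!
# Row 262, road B (helper32), part 2: the blow-up of the vertex locus

`exists_pure` : resolve the family `s` (without the tuple of the base), then blow up the locus of
the vertex rings `vx x`.
-/

set_option autoImplicit false
set_option linter.style.haveILetI false

noncomputable section

namespace Crest.Agent.X262.Pur32

open Crest.Agent.X277 Crest.Agent.X277.Lef Crest.Agent.X277.AN.G1 Crest.Agent.X277.Cns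
open Crest.Agent.X277.Res.Out (IsFr)
open Crest.Agent.R274.Prod1_134 Crest.Agent.R274.Prod4_134
open Crest.Agent.X262.Ms2

variable {K F M E : Type} [Field K] [Algebra ℂ K] [Field F] [Algebra ℂ F] [Field M] [Algebra ℂ M]
  [Field E] [Algebra ℂ E]

theorem of_self (L : LP E) : L.Of L.O :=
  ⟨le_rfl, fun f hf => ⟨f, hf, 1, one_mem _, by simp, mul_one f⟩⟩

theorem mem_of_of {L N : LP E} {A : Subalgebra ℂ E} (h : L.Of A) (hA : A ≤ N.O)
    (hv : ∀ a ∈ A, L.v a ≠ 0 → N.v a ≠ 0) : L.O ≤ N.O := fun f hf => by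
  obtain ⟨a, ha, c, hc, h0, h1⟩ := h.loc f hf
  rw [show f = a / c by rw [← h1, mul_div_cancel_right₀ _ (LP.ne_zero_of_ne h0)]]
  exact LP.div_mem (hA ha) (hv c hc h0)

section Two

variable {ι κ : Type} (R : ι → E) (μ : κ → E)

/-- the chart ring of two tuples -/
def ch2 (i : ι) (k : κ) : Subalgebra ℂ E :=
  Algebra.adjoin ℂ (Set.range (fun l => R l / R i) ∪ Set.range fun l => μ l / μ k)

variable {R μ} {i : ι} {k : κ}

theorem left_mem (l : ι) : R l / R i ∈ ch2 R μ i k := Algebra.subset_adjoin (Or.inl ⟨l, rfl⟩)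

theorem right_mem (l : κ) : μ l / μ k ∈ ch2 R μ i k := Algebra.subset_adjoin (Or.inr ⟨l, rfl⟩)

theorem ch2_le {B : Subalgebra ℂ E} (h1 : ∀ l, R l / R i ∈ B) (h2 : ∀ l, μ l / μ k ∈ B) :
    ch2 R μ i k ≤ B := Algebra.adjoin_le (by
  rintro _ (⟨l, rfl⟩ | ⟨l, rfl⟩)
  exacts [h1 l, h2 l])

theorem chI_two (hR : ∀ i, R i ≠ 0) (hμ : ∀ k, μ k ≠ 0) (p : ι × κ) :
    chI ℂ (fun p : ι × κ => R p.1 * μ p.2) p = ch2 R μ p.1 p.2 := by
  refine le_antisymm (chI_le fun q => ?_) (ch2_le (fun l => ?_) fun l => ?_)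
  · rw [← div_mul_div_comm]
    exact mul_mem (left_mem _) (right_mem _)
  · have h := div_mem_chI ℂ (fun p : ι × κ => R p.1 * μ p.2) p (l, p.2)
    rwa [mul_div_mul_right _ _ (hμ _)] at h
  · have h := div_mem_chI ℂ (fun p : ι × κ => R p.1 * μ p.2) p (p.1, l)
    rwa [mul_div_mul_left _ _ (hR _)] at h

/-- the model of two tuples, if all its points are smooth -/
theorem exists_two [Finite κ] [Nonempty κ] (B' : PModel ℂ E) (hμ : ∀ k, μ k ≠ 0)
    (h : ∀ (N : LP E) i k, N.Of (ch2 B'.y μ i k) → Algebra.FormallySmooth ℂ N.O) :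
    ∃ B : PModel ℂ E, (∀ w : Pts B, ∃ i k, (lp w).Of (ch2 B'.y μ i k)) ∧
      ∀ (N : LP E) i k, N.Of (ch2 B'.y μ i k) → ∃ w : Pts B, lp w = N := by
  let t : Fin (B'.N + 1) × κ → E := fun p => B'.y p.1 * μ p.2
  have h1 : ∀ p, chI ℂ t p = ch2 B'.y μ p.1 p.2 := chI_two B'.y_ne hμ
  let B : PModel ℂ E := ofFam t (fun p => mul_ne_zero (B'.y_ne _) (hμ _))
    (fun p f => by
      obtain ⟨a, ha, c, hc, h0, h2⟩ := B'.frac' p.1 f
      have h3 : B'.A p.1 ≤ chI ℂ t p := h1 p ▸ Algebra.adjoin_mono Set.subset_union_left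
      exact ⟨a, h3 ha, c, h3 hc, h0, h2⟩)
    fun p => smooth_of_lp _ fun N hN => h N p.1 p.2 (h1 p ▸ hN)
  have h2 : ∀ i, B.A i = ch2 B'.y μ (eI _ i).1 (eI _ i).2 := fun i =>
    (ofFam_A _ _ _ _ i).trans (h1 _)
  refine ⟨B, fun w => ?_, fun N i k hN => ?_⟩
  · obtain ⟨i, hi⟩ := exists_pat w
    exact ⟨_, _, h2 i ▸ lp_of hi⟩
  · obtain ⟨w, -, hw⟩ := exists_lp_eq (P := B) (i := (eI _).symm (i, k)) (L := N)
      (by rw [h2, Equiv.apply_symm_apply]; exact hN)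
    exact ⟨w, hw⟩

end Two

theorem pos_of_ne (P : PModel ℂ E) {f : E} (h : ∀ c : ℂ, f ≠ algebraMap ℂ E c) : 0 < P.N := by
  by_contra h0
  have h1 : P.A 0 ≤ ⊥ := Algebra.adjoin_le (by
    rintro _ ⟨j, rfl⟩
    have h2 : j = 0 := Fin.ext (by have := j.2; simp only [Fin.val_zero]; omega)
    change P.y j / P.y 0 ∈ (⊥ : Subalgebra ℂ E)
    rw [h2, div_self (P.y_ne 0)]
    exact one_mem _)
  obtain ⟨a, ha, c, hc, -, rfl⟩ := P.frac f
  obtain ⟨a', rfl⟩ := Algebra.mem_bot.1 (h1 ha)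
  obtain ⟨c', rfl⟩ := Algebra.mem_bot.1 (h1 hc)
  exact h (a' / c') (map_div₀ _ _ _).symm

theorem rf_ne {ρ : M →ₐ[ℂ] E} {u : E} (h : IsRF ρ u) (a : M) : u ≠ ρ a := fun h0 =>
  Polynomial.X_sub_C_ne_zero a (h.eq_zero (by rw [map_sub, evp_X, evp_C, h0, sub_self]))

/-- **the pure model** -/
theorem exists_pure (hP : Res.PlusStmt ℂ) {al : K →ₐ[ℂ] M} {be : F →ₐ[ℂ] M} (pf : IsPF al be)
    (rho : M →ₐ[ℂ] E) (X : PModel ℂ K) (S : PModel ℂ F) {J : Type} [Fintype J] {io : J → Type}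
    [∀ j, Finite (io j)] [∀ j, Nonempty (io j)] (s : ∀ j, io j → E) (hs : ∀ j i, s j i ≠ 0)
    (hfr : ∀ c, IsFr (mch s c)) (vx : Pts X → LP E) (u : Pts X → Fin (S.N + 1) → E)
    (rf : ∀ x k, IsRF rho (u x k)) (hu : ∀ x k l, u x l = u x k * rho (be (S.y l / S.y k)))
    (v1 : ∀ x, Reg (vx x) ∧ ∃ c, (vx x).Of (mch s c))
    (v2 : ∀ x, (vx x).Of
      (Algebra.adjoin ℂ ((fun f => rho (al f)) '' (lp x).O ∪ Set.range (u x))))
    (v3 : ∀ x k, (vx x).v (u x k) = 0)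
    (H2 : ∀ (N : LP E) c, mch s c ≤ N.O → (∃ x, (vx x).O ≤ N.O) ∨
      ∃ k, ∀ l, rho (be (S.y l / S.y k)) ∈ N.O) :
    ∃ (B : PModel ℂ E) (N : ℕ) (R : Fin (N + 1) → E), 0 < N ∧ (∀ i, R i ≠ 0) ∧
      (∀ j, Gn B (s j)) ∧
      (∀ w : Pts B, ∃ i k, (lp w).Of (Algebra.adjoin ℂ (Set.range (fun l => R l / R i) ∪
        Set.range fun l => rho (be (S.y l / S.y k))))) ∧
      (∀ (L : LP E) c k, L.Of (mch s c) → Reg L → (∀ l, rho (be (S.y l / S.y k)) ∈ L.O) →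
        ∃ w : Pts B, lp w = L) ∧
      (∀ (z : Pts (Cns.prod X S pf)) k, (Cns.snd X S pf).map z ∈ pat S k →
        ∃ w : Pts B, lp w = lpR (rf ((Cns.fst X S pf).map z) k) (lp z) 0) ∧
      ∀ x, ∃ i, ∀ l, R l / R i ∈ (vx x).O := by
  obtain ⟨B', hg, hk⟩ := exists_res hP hs hfr
  choose b hb using fun x => (v1 x).2.elim fun c hc => hk _ c hc (v1 x).1
  let μ : Fin (S.N + 1) → E := fun k => rho (be (S.y k))
  have hμ : ∀ k, μ k ≠ 0 := fun k => (map_ne_zero rho).2 ((map_ne_zero be).2 (S.y_ne k))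
  have hd : ∀ l k, μ l / μ k = rho (be (S.y l / S.y k)) := fun l k => by
    rw [map_div₀, map_div₀]
  have hal : ∀ x, ∀ f ∈ (lp x).O, rho (al f) ∈ (vx x).O := fun x f hf =>
    (v2 x).le (Algebra.subset_adjoin (Or.inl ⟨f, hf, rfl⟩))
  have hum : ∀ x k, u x k ∈ (vx x).O := fun x k =>
    (v2 x).le (Algebra.subset_adjoin (Or.inr ⟨k, rfl⟩))
  -- the vertex ring lies in the rings of the exceptional divisor
  have A1 : ∀ (z : Pts (Cns.prod X S pf)) k, (Cns.snd X S pf).map z ∈ pat S k →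
      (vx ((Cns.fst X S pf).map z)).O ≤ (lpR (rf ((Cns.fst X S pf).map z) k) (lp z) 0).O := by
    intro z k hz
    set x := (Cns.fst X S pf).map z
    have h1 : ∀ f ∈ (lp x).O, rho (al f) ∈ (lpR (rf x k) (lp z) 0).O := fun f hf =>
      π_mem_lpR _ ((Cns.fst X S pf).π_mem hf)
    have h2 : ∀ l, rho (be (S.y l / S.y k)) ∈ (lpR (rf x k) (lp z) 0).O := fun l =>
      π_mem_lpR _ ((Cns.snd X S pf).π_mem (y_mem hz l))
    have h3 : ∀ l, u x l ∈ (lpR (rf x k) (lp z) 0).O := fun l =>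
      hu x k l ▸ mul_mem (τ_mem_lpR _) (h2 l)
    refine (of_dom (v2 x) (Algebra.adjoin_le ?_) (v_eq_of_adjoin
      (fun a ha => (v2 x).le (Algebra.subset_adjoin ha)) ?_ ?_)).le
    · rintro _ (⟨f, hf, rfl⟩ | ⟨l, rfl⟩)
      exacts [h1 f hf, h3 l]
    · rintro _ (⟨f, hf, rfl⟩ | ⟨l, rfl⟩)
      exacts [h1 f hf, h3 l]
    · rintro _ (⟨f, hf, rfl⟩ | ⟨l, rfl⟩)
      · exact ((dom_le (L := lp x) (L' := (lpR (rf x k) (lp z) 0).comap (.ofHom (rho.comp al)))
          fun f hf => ⟨Algebra.mem_top, h1 f hf⟩).eq f hf).trans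
          ((dom_le (L := lp x) (L' := (vx x).comap (.ofHom (rho.comp al)))
            fun f hf => ⟨Algebra.mem_top, hal x f hf⟩).eq f hf).symm
      · rw [v3, hu x k l, LP.v_mul _ (τ_mem_lpR _) (h2 l), lpR_v_τ, zero_mul]
  -- the rings of the exceptional divisor are localisations of the charts
  have A2 : ∀ (z : Pts (Cns.prod X S pf)) k i, (Cns.snd X S pf).map z ∈ pat S k →
      b ((Cns.fst X S pf).map z) ∈ pat B' i →
      (lpR (rf ((Cns.fst X S pf).map z) k) (lp z) 0).Of (ch2 B'.y μ i k) := by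
    intro z k i hz hi
    set x := (Cns.fst X S pf).map z
    have h1 := A1 z k hz
    have h2 : ch2 B'.y μ i k ≤ (lpR (rf x k) (lp z) 0).O := ch2_le
      (fun l => h1 (hb x ▸ y_mem hi l))
      fun l => hd l k ▸ π_mem_lpR _ ((Cns.snd X S pf).π_mem (y_mem hz l))
    have h3 : (vx x).O ≤ (fr h2).O := mem_of_of (hb x ▸ lp_of hi)
      (fun a ha => mem_fr h2 (Algebra.adjoin_mono Set.subset_union_left ha)) fun a ha h0 => by
        rwa [← (fr_dom h2).eq a (mem_fr h2 (Algebra.adjoin_mono Set.subset_union_left ha)),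
          (dom_le h1).eq a (hb x ▸ A_le hi ha)]
    have h4 : (lp z).Of (pr al be (lp x).O (S.A k)) := by
      rw [lp_prod pf z]
      exact lpP_of' pf (of_self _) (lp_of hz)
    refine of_fr (lpR_of' (rf x k) h4 0) h2 (ra_le (fun a ha => ?_) (h3 (hum x k)))
    refine pr_le (C := (fr h2).O.comap rho) (fun f hf => h3 (hal x f hf)) (fun f hf => ?_) ha
    refine Algebra.adjoin_le (S := ((fr h2).O.comap rho).comap be) ?_ hf
    rintro _ ⟨l, rfl⟩
    change rho (be (S.y l / S.y k)) ∈ (fr h2).O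
    exact hd l k ▸ mem_fr h2 (right_mem l)
  -- all points of the product model are smooth
  have A3 : ∀ (N : LP E) i k, N.Of (ch2 B'.y μ i k) → Algebra.FormallySmooth ℂ N.O := by
    intro N i k hN
    obtain ⟨p, hp, h1⟩ := exists_dom (P := B') (i := i) N fun l => hN.le (left_mem l)
    choose c _ hc using fun j => hg j p
    rcases H2 (lp p) c (mch_le hc) with ⟨x, hx⟩ | ⟨k', hk'⟩
    · obtain rfl : b x = p := eq_of_le (hb x ▸ hx)
      have h2 : (vx x).O ≤ N.O := hb x ▸ h1.le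
      obtain ⟨ξ, hξ, h3⟩ := exists_dom (P := S) (i := k) (N.comap (.ofHom (rho.comp be)))
        fun l => ⟨Algebra.mem_top, (hd l k ▸ hN.le (right_mem l) :
          rho (be (S.y l / S.y k)) ∈ N.O)⟩
      have h4 : (lp (mk pf x ξ)).O ≤ (N.comap (.ofHom rho)).O := by
        rw [lp_mk]
        exact (lpP_dom pf (M := N.comap (.ofHom rho))
          (dom_le fun f hf => ⟨Algebra.mem_top, Algebra.mem_top, h2 (hal x f hf)⟩)
          (dom_le fun f hf => ⟨Algebra.mem_top, Algebra.mem_top, (h3.le hf).2⟩)).le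
      have h5 := lpR_le (rf x k) (fun f hf => (h4 hf).2) (h2 (hum x k))
      rw [(dom_le h2).eq _ (hum x k), v3] at h5
      have h6 := A2 (mk pf x ξ) k i (by rwa [snd_mk]) (by rwa [fst_mk])
      rw [fst_mk] at h6
      rw [← eq_of_dom_of (dom_le h5) hN h6.le]
      haveI := lp_fs (mk pf x ξ)
      exact fs_lpR _
    · have h2 : ∀ l, μ l / μ k' ∈ (lp p).O := fun l => hd l k' ▸ hk' l
      have h3 : (lp p).v (μ k / μ k') ≠ 0 := by
        rw [← h1.eq _ (h2 k)]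
        refine LP.ne_of_inv_mem (h1.le (h2 k)) (div_ne_zero (hμ _) (hμ _)) ?_
        rw [inv_div]
        exact hN.le (right_mem _)
      rw [← eq_of_dom_of h1 hN (ch2_le (y_mem hp) fun l => by
        rw [← div_div_div_cancel_right₀ (hμ k')]
        exact LP.div_mem (h2 l) h3)]
      exact lp_fs p
  obtain ⟨B, g1, g2⟩ := exists_two B' hμ A3
  obtain ⟨x₀, -⟩ := exists_ov X (V := ⊤) fun _ => ValuationSubring.mem_top _
  refine ⟨B, B'.N, B'.y, pos_of_ne B' (f := u x₀ 0) fun c h0 => rf_ne (rf x₀ 0) (algebraMap ℂ M c)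
    (h0.trans (rho.commutes c).symm), B'.y_ne, fun j w => ?_, fun w => ?_,
    fun L c k h1 h2 h3 => ?_, fun z k hz => ?_, fun x => ?_⟩
  · obtain ⟨i, k, h1⟩ := g1 w
    obtain ⟨p, -, h2⟩ := exists_dom (P := B') (i := i) (lp w) fun l => h1.le (left_mem l)
    obtain ⟨c, h3, h4⟩ := hg j p
    exact ⟨c, h3, fun l => h2.le (h4 l)⟩
  · obtain ⟨i, k, h1⟩ := g1 w
    refine ⟨i, k, ?_⟩
    simpa only [ch2, hd] using h1
  · obtain ⟨p, rfl⟩ := hk L c h1 h2
    obtain ⟨i, hi⟩ := exists_pat p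
    exact g2 _ i k (of_mono (lp_of hi) (Algebra.adjoin_mono Set.subset_union_left)
      (ch2_le (y_mem hi) fun l => hd l k ▸ h3 l))
  · obtain ⟨i, hi⟩ := exists_pat (b ((Cns.fst X S pf).map z))
    exact g2 _ i k (A2 z k i hz hi)
  · obtain ⟨i, hi⟩ := exists_pat (b x)
    exact ⟨i, fun l => hb x ▸ y_mem hi l⟩

end Crest.Agent.X262.Pur32
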