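import Crest.Agent.X262.Pur32.Main
import Crest.Agent.X262.Ms2.Sp
import Crest.Agent.X262.Res.Main

/-!
# Row 262, road B (helper32), part 3: `pureStmt`
-/

set_option autoImplicit false

namespace Crest.Agent.X262.Pur32

open Crest.Agent.X277.AN.G1

theorem pure_of (hP : Res.PlusStmt ℂ) : Ms2.PureStmt := by
  intro K F M E _ _ _ _ _ _ _ _ α β pf ρ X S J _ io _ _ s hs hfr vx u rf hu v1 v2 v3 H2
  obtain ⟨B, N, R, h1, h2, h3, h4, h5, h6, h7⟩ :=
    exists_pure hP pf ρ X S s hs hfr vx u rf hu v1 v2 v3 H2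
  obtain ⟨x⟩ : Nonempty (Pts X) := inferInstance
  exact ⟨B, N, R, h1, h2, h3, h4, h5, h6, x, h7 x⟩

theorem pureStmt : Ms2.PureStmt := pure_of (Res.plusStmt ℂ)

end Crest.Agent.X262.Pur32
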