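import Crest.Agent.X262.Ms2.Keep
import Crest.Agent.X262.Ms2.Pn
import Crest.Agent.X262.Ms11.Bor0

/-!
# Row 262, road B (helper32), part 1: the local ring at the vertex of a cone

`M = Frac (K ⊗ S.F)`, `L = M (u)`, `w l = u * μ l`.

* `va`, `IsVx N₀ N` : `N` is the localisation of `N₀ [w]` at `w = 0`;
* `IsVx.le`, `IsVx.unique`, `IsVx.of'`, `IsVx.le_lpR`, `IsVx.res` ;
* `exists_vx` : it exists and it is regular if `S` is a projective space.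
-/

set_option autoImplicit false
set_option linter.style.haveILetI false

noncomputable section

namespace Crest.Agent.X262.Pur32

open Crest.Agent.X277 Crest.Agent.X277.Lef Crest.Agent.X277.AN.G1 Crest.Agent.X277.Cns
open Crest.Agent.R274.Prod1_134 Crest.Agent.R274.Prod4_134
open Crest.Agent.X262.Coh Crest.Agent.X262.Gwb Crest.Agent.X262.Ms2

variable {K M L : Type} [Field K] [Algebra ℂ K] [Field M] [Algebra ℂ M] [Field L] [Algebra ℂ L]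
  {ι : Type}

/-- the ring `A [w]` -/
def va (κ : K →ₐ[ℂ] L) (w : ι → L) (A : Subalgebra ℂ K) : Subalgebra ℂ L :=
  Algebra.adjoin ℂ (κ '' A ∪ Set.range w)

section Va

variable {κ : K →ₐ[ℂ] L} {w : ι → L} {A : Subalgebra ℂ K} {N₀ : LP K} {N N' : LP L}

theorem κ_mem_va {a : K} (ha : a ∈ A) : κ a ∈ va κ w A :=
  Algebra.subset_adjoin (Or.inl ⟨a, ha, rfl⟩)

theorem w_mem_va (l : ι) : w l ∈ va κ w A := Algebra.subset_adjoin (Or.inr ⟨l, rfl⟩)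

theorem va_le {B : Subalgebra ℂ L} (h1 : ∀ a ∈ A, κ a ∈ B) (h2 : ∀ l, w l ∈ B) : va κ w A ≤ B :=
  Algebra.adjoin_le (by
    rintro _ (⟨a, ha, rfl⟩ | ⟨l, rfl⟩)
    exacts [h1 a ha, h2 l])

/-- `N` is the local ring of the point `(N₀, w = 0)` -/
structure IsVx (κ : K →ₐ[ℂ] L) (w : ι → L) (N₀ : LP K) (N : LP L) : Prop where
  of : N.Of (va κ w N₀.O)
  zero : ∀ l, N.v (w l) = 0

namespace IsVx

variable (h : IsVx κ w N₀ N)

include h

theorem κ_mem {a : K} (ha : a ∈ N₀.O) : κ a ∈ N.O := h.of.le (κ_mem_va ha)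

theorem w_mem (l : ι) : w l ∈ N.O := h.of.le (w_mem_va l)

theorem dom₀ : N₀.Dom (N.comap (Plc.ofHom κ)) :=
  dom_le fun _ ha => ⟨Algebra.mem_top, h.κ_mem ha⟩

theorem v_κ {a : K} (ha : a ∈ N₀.O) : N.v (κ a) = N₀.v a := h.dom₀.eq a ha

/-- universal property -/
theorem dom (h1 : ∀ a ∈ N₀.O, κ a ∈ N'.O) (h2 : ∀ l, w l ∈ N'.O) (h3 : ∀ l, N'.v (w l) = 0) :
    N.Dom N' := by
  have h4 : N₀.Dom (N'.comap (Plc.ofHom κ)) := dom_le fun a ha => ⟨Algebra.mem_top, h1 a ha⟩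
  refine of_dom h.of (va_le h1 h2)
    (v_eq_of_adjoin (fun a ha => h.of.le (Algebra.subset_adjoin ha)) ?_ ?_)
  · rintro _ (⟨a, ha, rfl⟩ | ⟨l, rfl⟩)
    exacts [h1 a ha, h2 l]
  · rintro _ (⟨a, ha, rfl⟩ | ⟨l, rfl⟩)
    · exact (h4.eq a ha).trans (h.v_κ ha).symm
    · exact (h3 l).trans (h.zero l).symm

theorem unique (h' : IsVx κ w N₀ N') : N = N' :=
  eq_of_dom_of (h.dom (fun _ => h'.κ_mem) h'.w_mem h'.zero) h'.of h.of.le

/-- a smaller ring of constants -/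
theorem of' (hA : N₀.Of A) : N.Of (va κ w A) := by
  have h2 : va κ w A ≤ N.O := va_le (fun a ha => h.κ_mem (hA.le ha)) h.w_mem
  refine of_fr h.of h2 (va_le (fun f hf => ?_) fun l => mem_fr h2 (w_mem_va l))
  obtain ⟨a, ha, b, hb, h0, h3⟩ := hA.loc f hf
  rw [show f = a / b by rw [← h3, mul_div_cancel_right₀ _ (LP.ne_zero_of_ne h0)], map_div₀]
  exact div_mem_fr h2 (mem_fr h2 (κ_mem_va ha)) (mem_fr h2 (κ_mem_va hb))
    (by rwa [h.v_κ (hA.le hb)])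

/-- restriction to the locus `w = 0` along a place -/
theorem res {E : Type} [Field E] [Algebra ℂ E] (p : Plc L E) (α : K →ₐ[ℂ] E)
    (h1 : ∀ a, κ a ∈ p.O ∧ p.π (κ a) = α a) (h2 : ∀ l, w l ∈ p.O ∧ p.π (w l) = 0) {f : L}
    (hf : f ∈ N.O) : f ∈ p.O ∧ ∃ a ∈ N₀.O, p.π f = α a ∧ N₀.v a = N.v f := by
  have key : ∀ f ∈ va κ w N₀.O, f ∈ p.O ∧ ∃ a ∈ N₀.O, p.π f = α a ∧ N₀.v a = N.v f := by
    intro f hf
    refine Algebra.adjoin_induction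
      (p := fun f _ => f ∈ p.O ∧ ∃ a ∈ N₀.O, p.π f = α a ∧ N₀.v a = N.v f) ?_ ?_ ?_ ?_ hf
    · rintro _ (⟨a, ha, rfl⟩ | ⟨l, rfl⟩)
      · exact ⟨(h1 a).1, a, ha, (h1 a).2, (h.v_κ ha).symm⟩
      · exact ⟨(h2 l).1, 0, zero_mem _, by rw [(h2 l).2, map_zero], by rw [h.zero, LP.v_zero]⟩
    · intro c
      exact ⟨algebraMap_mem _ c, algebraMap ℂ K c, algebraMap_mem _ c,
        by rw [p.π_alg, AlgHom.commutes], by rw [N₀.v_alg, N.v_alg]⟩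
    · rintro f g hf hg ⟨k1, a, ha, k2, k3⟩ ⟨k4, b, hb, k5, k6⟩
      exact ⟨add_mem k1 k4, a + b, add_mem ha hb, by rw [p.π_add k1 k4, k2, k5, map_add],
        by rw [N₀.v_add ha hb, N.v_add (h.of.le hf) (h.of.le hg), k3, k6]⟩
    · rintro f g hf hg ⟨k1, a, ha, k2, k3⟩ ⟨k4, b, hb, k5, k6⟩
      exact ⟨mul_mem k1 k4, a * b, mul_mem ha hb, by rw [p.π_mul k1 k4, k2, k5, map_mul],
        by rw [N₀.v_mul ha hb, N.v_mul (h.of.le hf) (h.of.le hg), k3, k6]⟩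
  obtain ⟨a, ha, c, hc, h0, h3⟩ := h.of.loc f hf
  obtain ⟨k1, a', ha', k2, k3⟩ := key a ha
  obtain ⟨k4, c', hc', k5, k6⟩ := key c hc
  have h4 : N₀.v c' ≠ 0 := k6 ▸ h0
  have h5 : p.π c ≠ 0 := by
    rw [k5]
    exact (map_ne_zero α).2 (LP.ne_zero_of_ne h4)
  rw [show f = a / c by rw [← h3, mul_div_cancel_right₀ _ (LP.ne_zero_of_ne h0)]]
  exact ⟨Plc.div_mem k1 h5, a' / c', LP.div_mem ha' h4, by rw [Plc.π_div k1 h5, k2, k5, map_div₀],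
    by rw [LP.v_div ha' h4, LP.v_div (h.of.le ha) h0, k3, k6]⟩

end IsVx

end Va

section Cone

variable {S : SV} {α : K →ₐ[ℂ] M} {β : S.F →ₐ[ℂ] M} {ρ : M →ₐ[ℂ] L} {u : L}

theorem rf_mul (h : IsRF ρ u) {c : M} (hc : c ≠ 0) : IsRF ρ (u * ρ c) := mul_comm (ρ c) u ▸ h.scale hc

theorem exists_vertex (hS : IsProj S) : ∃ p : (cone S hS).Pt, p ∈ pat (cone S hS).P 0 ∧
    ∀ k : Fin (S.P.N + 1), ev ((cone S hS).P.y k.succ / (cone S hS).P.y 0) p = 0 := by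
  obtain ⟨ξ, -⟩ := exists_ov S.P (V := ⊤) fun _ => ValuationSubring.mem_top _
  obtain ⟨k, hk⟩ := exists_pat ξ
  have h1 := rf_mul (c_rf S).inv (S.P.y_ne k)
  have h2 : ∀ l, cπ S (S.P.y l) / cτ S =
      cπ S (S.P.y l / S.P.y k) * ((cτ S)⁻¹ * cπ S (S.P.y k)) := fun l => by
    have := (map_ne_zero (cπ S)).2 (S.P.y_ne k)
    rw [map_div₀]
    field_simp
  obtain ⟨p, hp, h3⟩ := exists_dom (P := (cone S hS).P) (i := 0) (lpR h1 (lp ξ) 0) fun j => by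
    refine Fin.cases ?_ (fun l => ?_) j
    · rw [div_self ((cone S hS).P.y_ne 0)]
      exact one_mem _
    · change cπ S (S.P.y l) / cτ S ∈ _
      rw [h2]
      exact mul_mem (π_mem_lpR h1 (y_mem hk l)) (τ_mem_lpR h1)
  refine ⟨p, hp, fun l => ?_⟩
  refine (h3.eq _ (y_mem hp l.succ)).symm.trans ?_
  change (lpR h1 (lp ξ) 0).v (cπ S (S.P.y l) / cτ S) = 0
  rw [h2, LP.v_mul _ (π_mem_lpR h1 (y_mem hk l)) (τ_mem_lpR h1), lpR_v_τ, mul_zero]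

/-- **the vertex ring** -/
theorem exists_vx (hS : IsProj S) (h₀ : IsPF α β) (h : IsRF ρ u) {P : PModel ℂ K} (x : Pts P) :
    ∃ N : LP L, IsVx (ρ.comp α) (fun l => u * ρ (β (S.P.y l))) (lp x) N ∧ Reg N := by
  obtain ⟨p, hp, h1⟩ := exists_vertex hS
  let γ : (cone S hS).F →ₐ[ℂ] L := (c_rf S).lift (ρ.comp β) u⁻¹ (Ms11.evp_comp_inj h.inv β)
  have g1 : ∀ a, γ (cπ S a) = ρ (β a) := fun a => (c_rf S).lift_π _ _ _ a
  have g2 : γ (cτ S) = u⁻¹ := (c_rf S).lift_t _ _ _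
  have g3 : ∀ k : Fin (S.P.N + 1), γ ((cone S hS).P.y k.succ / (cone S hS).P.y 0) =
      u * ρ (β (S.P.y k)) := fun k => by
    rw [map_div₀]
    change γ (cπ S (S.P.y k)) / γ (cτ S) = _
    rw [g1, g2, div_inv_eq_mul, mul_comm]
  have pf : IsPF (ρ.comp α) γ := isPF_symm (Ms11.isPF_rf (c_rf S) (isPF_symm h₀) h.inv g1 g2)
  have h2 := lpP_of' pf (L₁ := lp x) (A := (lp x).O)
    ⟨le_rfl, fun f hf => ⟨f, hf, 1, one_mem _, by simp, mul_one f⟩⟩ (lp_of hp)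
  have h3 : ∀ k : Fin (S.P.N + 1), (cone S hS).P.y k.succ / (cone S hS).P.y 0 ∈
      (cone S hS).P.A 0 := fun k => div_mem_chart (cone S hS).P.y 0 k.succ
  refine ⟨lpP pf (lp x) (lp p), ⟨of_mono h2 (pr_le (fun a ha => κ_mem_va ha) fun b hb => ?_)
    (va_le (fun a ha => h2.le (α_mem_pr ha)) fun l => ?_), fun l => ?_⟩, ?_⟩
  · refine Algebra.adjoin_le (S := (va _ _ _).comap γ) ?_ hb
    rintro _ ⟨j, rfl⟩
    refine Fin.cases ?_ (fun l => ?_) j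
    · change γ ((cone S hS).P.y 0 / (cone S hS).P.y 0) ∈ va _ _ _
      rw [div_self ((cone S hS).P.y_ne 0), map_one]
      exact one_mem _
    · exact (congrArg (· ∈ va _ _ _) (g3 l)).mpr (w_mem_va (w := fun l => u * ρ (β (S.P.y l))) l)
  · rw [← g3]
    exact h2.le (β_mem_pr (h3 l))
  · rw [← g3]
    exact ((dom_lpP_right pf (lp x) (lp p)).eq _ (A_le hp (h3 l))).trans (h1 l)
  · rw [← lp_mk]
    exact reg_lp _

end Cone

end Crest.Agent.X262.Pur32
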